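import Mathlib
import Vale.Agent.P078.Tr.Defs

/-!
# Paving over MASAs of semifinite von Neumann algebras: shared definitions

A MASA `A` of a von Neumann algebra `M` on `H` with a faithful normal semifinite trace, written as
`x ↦ ∑ k, ⟪vec k, x (vec k)⟫` on positive elements. Every normal weight has this form.
-/

open scoped ComplexOrder InnerProductSpace ENNReal

noncomputable section

namespace Vale.Agent.P078.Semi

open Vale.Agent.P078.Tr (Op)

universe u

variable {H : Type u} [NormedAddCommGroup H] [InnerProductSpace ℂ H] [CompleteSpace H]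

/-- A maximal abelian `*`-subalgebra `A` of `M`, and a faithful normal semifinite trace on `M`. -/
structure Semifinite (H : Type u) [NormedAddCommGroup H] [InnerProductSpace ℂ H]
    [CompleteSpace H] where
  /-- The von Neumann algebra. -/
  M : VonNeumannAlgebra H
  /-- The MASA. -/
  A : StarSubalgebra ℂ (Op H)
  le : ∀ a ∈ A, a ∈ M
  comm : ∀ a ∈ A, ∀ b ∈ A, a * b = b * a
  masa : ∀ x ∈ M, (∀ a ∈ A, x * a = a * x) → x ∈ A
  /-- The index set of the vectors. -/
  ι : Type u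
  /-- The vectors giving the trace. -/
  vec : ι → H
  separating : ∀ x ∈ M, (∀ k, x (vec k) = 0) → x = 0
  trace : ∀ x ∈ M, ∑' k, ‖x (vec k)‖ₑ ^ 2 = ∑' k, ‖(star x) (vec k)‖ₑ ^ 2
  semifinite : ∀ p ∈ M, IsStarProjection p → p ≠ 0 →
    ∃ q ∈ M, IsStarProjection q ∧ q ≠ 0 ∧ p * q = q ∧ ∑' k, ‖q (vec k)‖ₑ ^ 2 ≠ ⊤

namespace Semifinite

variable (S : Semifinite H)

/-- The squared 2-norm: the trace of `star x * x`. -/
def sq (x : Op H) : ℝ≥0∞ := ∑' k, ‖x (S.vec k)‖ₑ ^ 2

/-- Elements of `M` of finite 2-norm. -/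
def L2 (x : Op H) : Prop := x ∈ S.M ∧ S.sq x ≠ ⊤

/-- The trace of `star x * y`. -/
def ip (x y : Op H) : ℂ := ∑' k, ⟪x (S.vec k), y (S.vec k)⟫_ℂ

/-- The 2-norm. -/
def nrm (x : Op H) : ℝ := Real.sqrt (S.sq x).toReal

/-- The closed span of the ranges of the elements of finite 2-norm of `A`. -/
def finSpace : Submodule ℂ H :=
  (Submodule.span ℂ {w | ∃ a ∈ S.A, S.sq a ≠ ⊤ ∧ ∃ v, a v = w}).topologicalClosure

/-- The part of `1` where `A` has enough projections of finite trace. -/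
def z0 : Op H :=
  haveI : CompleteSpace S.finSpace :=
    (Submodule.isClosed_topologicalClosure _).completeSpace_coe
  S.finSpace.starProjection

end Semifinite

/-- A finite partition of the unit in `A` (zero pieces allowed). -/
structure Part (S : Semifinite H) where
  /-- The number of pieces. -/
  n : ℕ
  /-- The pieces. -/
  p : Fin n → Op H
  mem : ∀ i, p i ∈ S.A
  proj : ∀ i, IsStarProjection (p i)
  orth : ∀ i j, i ≠ j → p i * p j = 0
  sum_eq : ∑ i, p i = 1

/-- `Q` is finer than `P`. -/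
def Part.Refines {S : Semifinite H} (Q P : Part S) : Prop :=
  ∀ j, ∃ i, P.p i * Q.p j = Q.p j

/-- The pinching by a partition. -/
def Part.pinch {S : Semifinite H} (P : Part S) (x : Op H) : Op H := ∑ i, P.p i * x * P.p i

/-- `x` is `(ε, r)` so-pavable over `A` inside `M`. -/
def SoPavable (S : Semifinite H) (x : Op H) (ε : ℝ) (r : ℕ) : Prop :=
  ∀ (F : Finset H) (δ : ℝ), 0 < δ →
    ∃ (p : Fin r → Op H) (a q : Op H),
      (∀ i, p i ∈ S.A ∧ IsStarProjection (p i)) ∧ (∀ i j, i ≠ j → p i * p j = 0) ∧ ∑ i, p i = 1 ∧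
      a ∈ S.A ∧ IsSelfAdjoint a ∧ ‖a‖ ≤ ‖x‖ ∧ q ∈ S.M ∧ IsStarProjection q ∧
      (∀ v ∈ F, ‖(1 - q) v‖ < δ) ∧
      ‖q * (∑ i, p i * x * p i - a) * q‖ ≤ ε * ‖x‖

/-- Main theorem: `n ≤ C ε⁻²` for every MASA of every von Neumann algebra with a faithful normal
semifinite trace. -/
def SemifinitePavingStatement : Prop :=
  ∃ C : ℝ, ∀ (H : Type u) [NormedAddCommGroup H] [InnerProductSpace ℂ H] [CompleteSpace H]
    (S : Semifinite H) (x : Op H) (ε : ℝ), x ∈ S.M → IsSelfAdjoint x → 0 < ε → ε < 1 →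
    ∀ r : ℕ, C / ε ^ 2 ≤ r → SoPavable S x ε r

end Vale.Agent.P078.Semi
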