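import Mathlib
import Vale.Agent.P078.Semi.Defs
import Vale.Agent.P078.Tr.Basics.Cut

/-!
# Semifinite toolkit: membership
-/

open scoped ComplexOrder InnerProductSpace ENNReal

noncomputable section

namespace Vale.Agent.P078.Semi

open Vale.Agent.P078.Tr (Op rangeProj hinge cut)

universe u

variable {H : Type u} [NormedAddCommGroup H] [InnerProductSpace ℂ H] [CompleteSpace H]

namespace Semifinite

variable (S : Semifinite H)

lemma mem_M_iff {x : Op H} : x ∈ S.M ↔ ∀ y ∈ S.M.commutant, y * x = x * y := by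
  conv_lhs => rw [← VonNeumannAlgebra.commutant_commutant S.M]
  exact VonNeumannAlgebra.mem_commutant_iff

lemma commute_of_mem {x y : Op H} (hx : x ∈ S.M) (hy : y ∈ S.M.commutant) : Commute y x :=
  (S.mem_M_iff.1 hx) y hy

lemma smul_mem_M (c : ℂ) {x : Op H} (hx : x ∈ S.M) : c • x ∈ S.M :=
  S.M.toStarSubalgebra.smul_mem hx c

lemma rsmul_mem_M (c : ℝ) {x : Op H} (hx : x ∈ S.M) : c • x ∈ S.M := by
  rw [← Complex.coe_smul c x]
  exact S.smul_mem_M _ hx

lemma rsmul_mem_A (c : ℝ) {x : Op H} (hx : x ∈ S.A) : c • x ∈ S.A := by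
  rw [← Complex.coe_smul c x]
  exact S.A.smul_mem hx _

lemma isClosed_M : IsClosed (S.M : Set (Op H)) := by
  rw [← S.M.centralizer_centralizer]
  exact Set.isClosed_centralizer _

lemma coe_A_eq : (S.A : Set (Op H)) = (S.M : Set (Op H)) ∩ Set.centralizer (S.A : Set (Op H)) := by
  ext x
  refine ⟨fun hx => ⟨S.le x hx, fun a ha => S.comm a ha x hx⟩, fun hx => ?_⟩
  exact S.masa x hx.1 fun a ha => (hx.2 a ha).symm

lemma isClosed_A : IsClosed (S.A : Set (Op H)) := by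
  rw [S.coe_A_eq]
  exact S.isClosed_M.inter (Set.isClosed_centralizer _)

lemma cfc_mem_M {x : Op H} (hx : x ∈ S.M) (f : ℝ → ℝ) : cfc f x ∈ S.M :=
  S.mem_M_iff.2 fun _ hy => ((S.commute_of_mem hx hy).symm.cfc_real f).symm.eq

lemma cfc_mem_A {x : Op H} (hx : x ∈ S.A) (f : ℝ → ℝ) : cfc f x ∈ S.A :=
  S.masa _ (S.cfc_mem_M (S.le x hx) f) fun a ha =>
    (Commute.cfc_real (S.comm x hx a ha : Commute x a) f).eq

lemma rangeProj_mem_M {g : Op H} (hg : g ∈ S.M) (hs : IsSelfAdjoint g) : rangeProj g ∈ S.M :=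
  S.mem_M_iff.2 fun _ hy => (Tr.commute_rangeProj hs (S.commute_of_mem hg hy)).eq

lemma rangeProj_mem_A {g : Op H} (hg : g ∈ S.A) (hs : IsSelfAdjoint g) : rangeProj g ∈ S.A :=
  S.masa _ (S.rangeProj_mem_M (S.le g hg) hs) fun a ha =>
    (Tr.commute_rangeProj hs (S.comm a ha g hg : Commute a g)).symm.eq

lemma hinge_mem_M {h : Op H} (hh : h ∈ S.M) (t : ℝ) : hinge h t ∈ S.M := S.cfc_mem_M hh _

lemma hinge_mem_A {h : Op H} (hh : h ∈ S.A) (t : ℝ) : hinge h t ∈ S.A := S.cfc_mem_A hh _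

lemma cut_mem_M {h : Op H} (hh : h ∈ S.M) (t : ℝ) : cut h t ∈ S.M :=
  S.rangeProj_mem_M (S.hinge_mem_M hh t) (Tr.hinge_isSelfAdjoint h t)

lemma cut_mem_A {h : Op H} (hh : h ∈ S.A) (t : ℝ) : cut h t ∈ S.A :=
  S.rangeProj_mem_A (S.hinge_mem_A hh t) (Tr.hinge_isSelfAdjoint h t)

end Semifinite

end Vale.Agent.P078.Semi
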