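import Mathlib
import Vale.Agent.P078.Semi.Basic

/-!
# Semifinite toolkit: the 2-norm and the inner product of the trace
-/

open scoped ComplexOrder InnerProductSpace ENNReal ComplexConjugate Topology

noncomputable section

namespace Vale.Agent.P078.Semi

open Vale.Agent.P078.Tr (Op)

universe u

variable {H : Type u} [NormedAddCommGroup H] [InnerProductSpace ℂ H] [CompleteSpace H]

namespace Semifinite

variable (S : Semifinite H)

omit [CompleteSpace H] [InnerProductSpace ℂ H] in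
private lemma enorm_sq (v : H) : ‖v‖ₑ ^ 2 = ENNReal.ofReal (‖v‖ ^ 2) := by
  rw [← ofReal_norm, ENNReal.ofReal_pow (norm_nonneg v)]

lemma sq_ne_top_iff (x : Op H) :
    S.sq x ≠ ⊤ ↔ Summable fun k => ‖x (S.vec k)‖ ^ 2 := by
  refine ⟨fun h => ?_, fun h => ?_⟩
  · simpa [ENNReal.toReal_pow, toReal_enorm] using ENNReal.summable_toReal h
  · simp only [sq, enorm_sq, ← ENNReal.ofReal_tsum_of_nonneg (fun k => sq_nonneg _) h]
    exact ENNReal.ofReal_ne_top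

lemma toReal_sq (x : Op H) : (S.sq x).toReal = ∑' k, ‖x (S.vec k)‖ ^ 2 := by
  rw [sq, ENNReal.tsum_toReal_eq fun k => by simp]
  simp [ENNReal.toReal_pow, toReal_enorm]

lemma nrm_nonneg (x : Op H) : 0 ≤ S.nrm x := Real.sqrt_nonneg _

lemma nrm_sq (x : Op H) : S.nrm x ^ 2 = (S.sq x).toReal := Real.sq_sqrt ENNReal.toReal_nonneg

lemma hasSum_nrm_sq {x : Op H} (hx : S.sq x ≠ ⊤) :
    HasSum (fun k => ‖x (S.vec k)‖ ^ 2) (S.nrm x ^ 2) := by
  rw [nrm_sq, toReal_sq]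
  exact ((S.sq_ne_top_iff x).1 hx).hasSum

lemma sq_eq_ofReal {x : Op H} (hx : S.sq x ≠ ⊤) : S.sq x = ENNReal.ofReal (S.nrm x ^ 2) := by
  rw [nrm_sq, ENNReal.ofReal_toReal hx]

/-- The vectors of an element of finite 2-norm, as a point of `ℓ²`. -/
private def emb {x : Op H} (hx : S.sq x ≠ ⊤) : lp (fun _ : S.ι => H) 2 :=
  ⟨fun k => x (S.vec k), memℓp_gen (by simpa using (S.sq_ne_top_iff x).1 hx)⟩

private lemma emb_apply {x : Op H} (hx : S.sq x ≠ ⊤) (k : S.ι) :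
    S.emb hx k = x (S.vec k) := rfl

private lemma inner_emb {x y : Op H} (hx : S.sq x ≠ ⊤) (hy : S.sq y ≠ ⊤) :
    ⟪S.emb hx, S.emb hy⟫_ℂ = S.ip x y := lp.inner_eq_tsum _ _

private lemma norm_emb {x : Op H} (hx : S.sq x ≠ ⊤) : ‖S.emb hx‖ = S.nrm x := by
  refine (sq_eq_sq₀ (norm_nonneg _) (S.nrm_nonneg x)).1 ?_
  have h : ((‖S.emb hx‖ ^ 2 : ℝ) : ℂ) = ((S.nrm x ^ 2 : ℝ) : ℂ) := by
    push_cast
    rw [← RCLike.ofReal_eq_complex_ofReal, ← inner_self_eq_norm_sq_to_K, S.inner_emb hx hx, ip]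
    refine HasSum.tsum_eq ?_
    simpa [inner_self_eq_norm_sq_to_K] using Complex.hasSum_ofReal.2 (S.hasSum_nrm_sq hx)
  exact Complex.ofReal_injective h

/-! ### Closure properties -/

lemma sq_mul_left_le (a x : Op H) : S.sq (a * x) ≤ ‖a‖ₑ ^ 2 * S.sq x := by
  rw [sq, sq, ← ENNReal.tsum_mul_left]
  refine ENNReal.tsum_le_tsum fun k => ?_
  rw [← mul_pow]
  exact pow_le_pow_left' (a.le_opENorm _) 2

lemma sq_star {x : Op H} (hx : x ∈ S.M) : S.sq (star x) = S.sq x := (S.trace x hx).symm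

lemma sq_mul_right_le {a x : Op H} (ha : a ∈ S.M) (hx : x ∈ S.M) :
    S.sq (x * a) ≤ ‖a‖ₑ ^ 2 * S.sq x := by
  rw [← S.sq_star (mul_mem hx ha), star_mul, ← S.sq_star hx]
  refine (S.sq_mul_left_le _ _).trans (le_of_eq ?_)
  rw [← ofReal_norm, norm_star, ofReal_norm]

@[simp] lemma sq_zero : S.sq (0 : Op H) = 0 := by simp [sq]

lemma sq_smul (c : ℂ) (x : Op H) : S.sq (c • x) = ‖c‖ₑ ^ 2 * S.sq x := by
  simp [sq, ← ENNReal.tsum_mul_left, enorm_smul, mul_pow]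

lemma sq_neg (x : Op H) : S.sq (-x) = S.sq x := by simp [sq]

lemma sq_add_ne_top {x y : Op H} (hx : S.sq x ≠ ⊤) (hy : S.sq y ≠ ⊤) : S.sq (x + y) ≠ ⊤ := by
  rw [sq_ne_top_iff]
  simpa [emb_apply] using (S.emb hx + S.emb hy).2.summable (by norm_num)

lemma L2.zero : S.L2 0 := ⟨zero_mem _, by simp⟩

variable {S}

lemma L2.add {x y : Op H} (hx : S.L2 x) (hy : S.L2 y) : S.L2 (x + y) :=
  ⟨add_mem hx.1 hy.1, S.sq_add_ne_top hx.2 hy.2⟩

lemma L2.neg {x : Op H} (hx : S.L2 x) : S.L2 (-x) := ⟨neg_mem hx.1, by rw [sq_neg]; exact hx.2⟩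

lemma L2.sub {x y : Op H} (hx : S.L2 x) (hy : S.L2 y) : S.L2 (x - y) := by
  rw [sub_eq_add_neg]
  exact hx.add hy.neg

lemma L2.smul {x : Op H} (hx : S.L2 x) (c : ℂ) : S.L2 (c • x) :=
  ⟨S.smul_mem_M c hx.1, by rw [sq_smul]; exact ENNReal.mul_ne_top (by simp) hx.2⟩

lemma L2.rsmul {x : Op H} (hx : S.L2 x) (c : ℝ) : S.L2 (c • x) := by
  rw [← Complex.coe_smul c x]
  exact hx.smul _

lemma L2.star {x : Op H} (hx : S.L2 x) : S.L2 (star x) :=
  ⟨star_mem hx.1, by rw [S.sq_star hx.1]; exact hx.2⟩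

lemma L2.mul_left {a x : Op H} (ha : a ∈ S.M) (hx : S.L2 x) : S.L2 (a * x) :=
  ⟨mul_mem ha hx.1, ne_top_of_le_ne_top (ENNReal.mul_ne_top (by simp) hx.2) (S.sq_mul_left_le a x)⟩

lemma L2.mul_right {a x : Op H} (hx : S.L2 x) (ha : a ∈ S.M) : S.L2 (x * a) :=
  ⟨mul_mem hx.1 ha,
    ne_top_of_le_ne_top (ENNReal.mul_ne_top (by simp) hx.2) (S.sq_mul_right_le ha hx.1)⟩

lemma L2.sum {κ : Type*} {s : Finset κ} {f : κ → Op H} (h : ∀ i ∈ s, S.L2 (f i)) :
    S.L2 (∑ i ∈ s, f i) :=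
  Finset.sum_induction f S.L2 (fun _ _ hx hy => hx.add hy) (L2.zero S) h

variable (S)

lemma eq_zero_of_sq {x : Op H} (hx : x ∈ S.M) (h : S.sq x = 0) : x = 0 :=
  S.separating x hx fun k => by simpa [sq] using ENNReal.tsum_eq_zero.1 h k

lemma eq_zero_of_nrm {x : Op H} (hx : S.L2 x) (h : S.nrm x = 0) : x = 0 :=
  S.eq_zero_of_sq hx.1 (by rw [S.sq_eq_ofReal hx.2, h]; simp)

lemma apply_sq_le {x : Op H} (hx : S.sq x ≠ ⊤) (k : S.ι) : ‖x (S.vec k)‖ ≤ S.nrm x :=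
  (sq_le_sq₀ (norm_nonneg _) (S.nrm_nonneg x)).1
    (le_hasSum (S.hasSum_nrm_sq hx) k fun _ _ => sq_nonneg _)

/-! ### The inner product -/

lemma summable_ip {x y : Op H} (hx : S.sq x ≠ ⊤) (hy : S.sq y ≠ ⊤) :
    Summable fun k => ⟪x (S.vec k), y (S.vec k)⟫_ℂ :=
  lp.summable_inner (𝕜 := ℂ) (S.emb hx) (S.emb hy)

lemma conj_ip (x y : Op H) : conj (S.ip x y) = S.ip y x := by
  rw [ip, Complex.conj_tsum]
  exact tsum_congr fun k => inner_conj_symm _ _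

lemma ip_add_right {x y z : Op H} (hx : S.sq x ≠ ⊤) (hy : S.sq y ≠ ⊤) (hz : S.sq z ≠ ⊤) :
    S.ip x (y + z) = S.ip x y + S.ip x z := by
  simp only [ip, ← (S.summable_ip hx hy).tsum_add (S.summable_ip hx hz),
    _root_.add_apply, inner_add_right]

lemma ip_add_left {x y z : Op H} (hx : S.sq x ≠ ⊤) (hy : S.sq y ≠ ⊤) (hz : S.sq z ≠ ⊤) :
    S.ip (x + y) z = S.ip x z + S.ip y z := by
  rw [← S.conj_ip, S.ip_add_right hz hx hy, map_add, S.conj_ip, S.conj_ip]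

@[simp] lemma ip_zero_right (x : Op H) : S.ip x 0 = 0 := by simp [ip]

@[simp] lemma ip_zero_left (x : Op H) : S.ip 0 x = 0 := by simp [ip]

lemma ip_smul_right (c : ℂ) (x y : Op H) : S.ip x (c • y) = c * S.ip x y := by
  simp [ip, tsum_mul_left]

lemma ip_smul_left (c : ℂ) (x y : Op H) : S.ip (c • x) y = conj c * S.ip x y := by
  simp [ip, ← tsum_mul_left, mul_comm]

lemma ip_neg_right (x y : Op H) : S.ip x (-y) = -S.ip x y := by simp [ip, tsum_neg]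

lemma ip_neg_left (x y : Op H) : S.ip (-x) y = -S.ip x y := by simp [ip, tsum_neg]

lemma ip_sub_right {x y z : Op H} (hx : S.sq x ≠ ⊤) (hy : S.sq y ≠ ⊤) (hz : S.sq z ≠ ⊤) :
    S.ip x (y - z) = S.ip x y - S.ip x z := by
  rw [sub_eq_add_neg, S.ip_add_right hx hy (by rwa [sq_neg]), ip_neg_right, sub_eq_add_neg]

lemma ip_sub_left {x y z : Op H} (hx : S.sq x ≠ ⊤) (hy : S.sq y ≠ ⊤) (hz : S.sq z ≠ ⊤) :
    S.ip (x - y) z = S.ip x z - S.ip y z := by
  rw [sub_eq_add_neg, S.ip_add_left hx (by rwa [sq_neg]) hz, ip_neg_left, sub_eq_add_neg]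

lemma ip_sum_right {κ : Type*} {x : Op H} (hx : S.sq x ≠ ⊤) {s : Finset κ} {f : κ → Op H}
    (hf : ∀ i ∈ s, S.L2 (f i)) : S.ip x (∑ i ∈ s, f i) = ∑ i ∈ s, S.ip x (f i) := by
  classical
  induction s using Finset.induction_on with
  | empty => simp
  | insert i s hi ih =>
    rw [Finset.sum_insert hi, Finset.sum_insert hi, S.ip_add_right hx (hf i (by simp)).2
      (L2.sum fun j hj => hf j (Finset.mem_insert_of_mem hj)).2,
      ih fun j hj => hf j (Finset.mem_insert_of_mem hj)]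

lemma ip_sum_left {κ : Type*} {x : Op H} (hx : S.sq x ≠ ⊤) {s : Finset κ} {f : κ → Op H}
    (hf : ∀ i ∈ s, S.L2 (f i)) : S.ip (∑ i ∈ s, f i) x = ∑ i ∈ s, S.ip (f i) x := by
  rw [← S.conj_ip, S.ip_sum_right hx hf, map_sum]
  simp only [S.conj_ip]

lemma ip_self {x : Op H} (hx : S.sq x ≠ ⊤) : S.ip x x = (S.nrm x ^ 2 : ℝ) := by
  rw [← S.inner_emb hx hx, inner_self_eq_norm_sq_to_K, S.norm_emb]
  norm_cast

lemma re_ip_self {x : Op H} (hx : S.sq x ≠ ⊤) : (S.ip x x).re = S.nrm x ^ 2 := by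
  rw [S.ip_self hx, Complex.ofReal_re]

lemma norm_ip_le {x y : Op H} (hx : S.sq x ≠ ⊤) (hy : S.sq y ≠ ⊤) :
    ‖S.ip x y‖ ≤ S.nrm x * S.nrm y := by
  rw [← S.inner_emb hx hy, ← S.norm_emb hx, ← S.norm_emb hy]
  exact norm_inner_le_norm _ _

lemma abs_re_ip_le {x y : Op H} (hx : S.sq x ≠ ⊤) (hy : S.sq y ≠ ⊤) :
    |(S.ip x y).re| ≤ S.nrm x * S.nrm y :=
  (Complex.abs_re_le_norm _).trans (S.norm_ip_le hx hy)

lemma nrm_add_le {x y : Op H} (hx : S.sq x ≠ ⊤) (hy : S.sq y ≠ ⊤) :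
    S.nrm (x + y) ≤ S.nrm x + S.nrm y := by
  rw [← S.norm_emb hx, ← S.norm_emb hy, ← S.norm_emb (S.sq_add_ne_top hx hy)]
  refine le_of_eq_of_le (congrArg norm (lp.ext (funext fun k => ?_))) (norm_add_le _ _)
  simp [emb_apply]

@[simp] lemma nrm_zero : S.nrm (0 : Op H) = 0 := by simp [nrm]

lemma nrm_neg (x : Op H) : S.nrm (-x) = S.nrm x := by rw [nrm, sq_neg, nrm]

lemma nrm_sub_le {x y : Op H} (hx : S.sq x ≠ ⊤) (hy : S.sq y ≠ ⊤) :
    S.nrm (x - y) ≤ S.nrm x + S.nrm y := by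
  rw [sub_eq_add_neg, ← S.nrm_neg y]
  exact S.nrm_add_le hx (by rwa [sq_neg])

lemma nrm_sum_le {κ : Type*} {s : Finset κ} {f : κ → Op H} (hf : ∀ i ∈ s, S.L2 (f i)) :
    S.nrm (∑ i ∈ s, f i) ≤ ∑ i ∈ s, S.nrm (f i) := by
  classical
  induction s using Finset.induction_on with
  | empty => simp
  | insert i s hi ih =>
    rw [Finset.sum_insert hi, Finset.sum_insert hi]
    refine (S.nrm_add_le (hf i (by simp)).2
      (L2.sum fun j hj => hf j (Finset.mem_insert_of_mem hj)).2).trans ?_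
    exact add_le_add le_rfl (ih fun j hj => hf j (Finset.mem_insert_of_mem hj))

lemma nrm_smul (c : ℂ) (x : Op H) : S.nrm (c • x) = ‖c‖ * S.nrm x := by
  rw [nrm, sq_smul, ENNReal.toReal_mul, ENNReal.toReal_pow, toReal_enorm,
    Real.sqrt_mul (sq_nonneg _), Real.sqrt_sq (norm_nonneg c), nrm]

lemma nrm_star {x : Op H} (hx : x ∈ S.M) : S.nrm (star x) = S.nrm x := by
  rw [nrm, S.sq_star hx, nrm]

private lemma nrm_le_of_sq_le {x y : Op H} {a : Op H} (hx : S.sq x ≠ ⊤)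
    (h : S.sq y ≤ ‖a‖ₑ ^ 2 * S.sq x) : S.nrm y ≤ ‖a‖ * S.nrm x := by
  rw [nrm, nrm]
  refine (Real.sqrt_le_sqrt (ENNReal.toReal_mono (ENNReal.mul_ne_top (by simp) hx) h)).trans ?_
  rw [ENNReal.toReal_mul, ENNReal.toReal_pow, toReal_enorm, Real.sqrt_mul (sq_nonneg _),
    Real.sqrt_sq (norm_nonneg a)]

lemma nrm_mul_left_le (a : Op H) {x : Op H} (hx : S.sq x ≠ ⊤) :
    S.nrm (a * x) ≤ ‖a‖ * S.nrm x := S.nrm_le_of_sq_le hx (S.sq_mul_left_le a x)

lemma nrm_mul_right_le {a x : Op H} (ha : a ∈ S.M) (hx : S.L2 x) :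
    S.nrm (x * a) ≤ ‖a‖ * S.nrm x := S.nrm_le_of_sq_le hx.2 (S.sq_mul_right_le ha hx.1)

/-! ### The trace property -/

/-- The trace property of the inner product. -/
lemma ip_star {x y : Op H} (hx : S.L2 x) (hy : S.L2 y) :
    S.ip x y = S.ip (star y) (star x) := by
  have pol : ∀ {a b : Op H}, S.L2 a → S.L2 b → S.ip a b =
      ((S.nrm (a + b) : ℂ) ^ 2 - (S.nrm (a - b) : ℂ) ^ 2 +
        ((S.nrm (a - Complex.I • b) : ℂ) ^ 2 - (S.nrm (a + Complex.I • b) : ℂ) ^ 2) *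
          Complex.I) / 4 := by
    intro a b ha hb
    have hp := (ha.add hb).2
    have hm := (ha.sub hb).2
    have hpI := (ha.add (hb.smul Complex.I)).2
    have hmI := (ha.sub (hb.smul Complex.I)).2
    rw [← S.inner_emb ha.2 hb.2, inner_eq_sum_norm_sq_div_four, ← S.norm_emb hp, ← S.norm_emb hm,
      ← S.norm_emb hpI, ← S.norm_emb hmI]
    rfl
  rw [pol hx hy, pol hy.star hx.star]
  have hI : star (Complex.I : ℂ) = -Complex.I := Complex.conj_I
  have e1 : star y + star x = star (x + y) := by rw [star_add]; abel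
  have e2 : star y - star x = -star (x - y) := by rw [star_sub]; abel
  have e3 : star y - Complex.I • star x = star (Complex.I • (x - Complex.I • y)) := by
    rw [star_smul, star_sub, star_smul, hI, smul_sub, smul_smul]
    simp only [neg_mul_neg, Complex.I_mul_I, neg_smul, one_smul]
    abel
  have e4 : star y + Complex.I • star x = star ((-Complex.I) • (x + Complex.I • y)) := by
    rw [star_smul, star_add, star_smul, star_neg, hI, neg_neg, smul_add, smul_smul]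
    simp only [mul_neg, Complex.I_mul_I, neg_neg, one_smul]
    abel
  rw [e1, e2, e3, e4, nrm_neg, S.nrm_star (add_mem hx.1 hy.1), S.nrm_star (sub_mem hx.1 hy.1),
    S.nrm_star (S.smul_mem_M _ (hx.sub (hy.smul _)).1),
    S.nrm_star (S.smul_mem_M _ (hx.add (hy.smul _)).1), nrm_smul, nrm_smul]
  simp

lemma ip_mul_left (a x y : Op H) : S.ip (a * x) y = S.ip x (star a * y) := by
  refine tsum_congr fun k => ?_
  simp [ContinuousLinearMap.star_eq_adjoint, ContinuousLinearMap.adjoint_inner_right]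

lemma ip_mul_right {a x y : Op H} (ha : a ∈ S.M) (hx : S.L2 x) (hy : S.L2 y) :
    S.ip (x * a) y = S.ip x (y * star a) := by
  rw [S.ip_star (hx.mul_right ha) hy, S.ip_star hx (hy.mul_right (star_mem ha)), star_mul,
    star_mul, star_star, S.ip_mul_left]

/-! ### Lower semicontinuity -/

/-- The 2-norm is weakly lower semicontinuous. -/
lemma sq_le_of_tendsto {κ : Type*} {l : Filter κ} [l.NeBot] {f : κ → Op H} {x : Op H} {C : ℝ≥0∞}
    (h : ∀ k η, Filter.Tendsto (fun i => ⟪η, f i (S.vec k)⟫_ℂ) l (𝓝 ⟪η, x (S.vec k)⟫_ℂ))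
    (hC : ∀ᶠ i in l, S.sq (f i) ≤ C) : S.sq x ≤ C := by
  refine ENNReal.summable.tsum_le_of_sum_le fun s => ?_
  by_cases hCt : C = ⊤
  · simp [hCt]
  simp only [enorm_sq, ← ENNReal.ofReal_sum_of_nonneg fun k _ => sq_nonneg _]
  refine ENNReal.ofReal_le_of_le_toReal ?_
  set T := ∑ k ∈ s, ‖x (S.vec k)‖ ^ 2
  have hlim : Filter.Tendsto (fun i => ∑ k ∈ s, 2 * (⟪x (S.vec k), f i (S.vec k)⟫_ℂ).re) l
      (𝓝 (2 * T)) := by
    rw [Finset.mul_sum]
    refine tendsto_finsetSum _ fun k _ => ?_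
    have := ((Complex.continuous_re.tendsto _).comp (h k (x (S.vec k)))).const_mul 2
    simpa [Function.comp_def, inner_self_eq_norm_sq_to_K, ← Complex.ofReal_pow] using this
  have hle : ∀ᶠ i in l, (∑ k ∈ s, 2 * (⟪x (S.vec k), f i (S.vec k)⟫_ℂ).re) ≤ T + C.toReal := by
    filter_upwards [hC] with i hi
    have hfin : S.sq (f i) ≠ ⊤ := ne_top_of_le_ne_top hCt hi
    calc _ ≤ ∑ k ∈ s, (‖x (S.vec k)‖ ^ 2 + ‖f i (S.vec k)‖ ^ 2) := Finset.sum_le_sum fun k _ => by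
          nlinarith [Complex.abs_re_le_norm ⟪x (S.vec k), f i (S.vec k)⟫_ℂ,
            le_abs_self (⟪x (S.vec k), f i (S.vec k)⟫_ℂ).re,
            norm_inner_le_norm (𝕜 := ℂ) (x (S.vec k)) (f i (S.vec k)),
            sq_nonneg (‖x (S.vec k)‖ - ‖f i (S.vec k)‖)]
      _ ≤ T + C.toReal := by
          rw [Finset.sum_add_distrib]
          refine add_le_add le_rfl ?_
          refine (sum_le_hasSum s (fun _ _ => sq_nonneg _) (S.hasSum_nrm_sq hfin)).trans ?_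
          rw [nrm_sq]
          exact ENNReal.toReal_mono hCt hi
  linarith [le_of_tendsto hlim hle]

end Semifinite

end Vale.Agent.P078.Semi
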