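import Mathlib
import Vale.Agent.P078.Semi.Trace

/-!
# Semifinite toolkit: projections of finite trace
-/

open scoped ComplexOrder InnerProductSpace ENNReal Topology

noncomputable section

namespace Vale.Agent.P078.Semi

open Vale.Agent.P078.Tr (Op hinge cut)

universe u

variable {H : Type u} [NormedAddCommGroup H] [InnerProductSpace ℂ H] [CompleteSpace H]

/-- A projection onto a subspace invariant under `y` and `star y` commutes with `y`. -/
lemma commute_starProjection {K : Submodule ℂ H} [K.HasOrthogonalProjection] {y : Op H}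
    (h1 : ∀ v ∈ K, y v ∈ K) (h2 : ∀ v ∈ K, star y v ∈ K) : Commute y K.starProjection := by
  have aux : ∀ {c : Op H}, (∀ v ∈ K, c v ∈ K) →
      K.starProjection * c * K.starProjection = c * K.starProjection := fun {c} hc =>
    ContinuousLinearMap.ext fun v => Submodule.starProjection_eq_self_iff.2
      (hc _ (Submodule.starProjection_apply_mem _ v))
  have hP : star K.starProjection = K.starProjection :=
    (isStarProjection_starProjection (U := K)).isSelfAdjoint.star_eq
  have h := congrArg star (aux h2)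
  rw [star_mul, star_mul, star_mul, star_star, hP, ← mul_assoc] at h
  exact ((aux h1).symm.trans h : y * K.starProjection = K.starProjection * y)

omit [CompleteSpace H] in
/-- Invariance of the closed span of a set. -/
lemma closedSpan_invariant {s : Set H} {y : Op H}
    (h : ∀ v ∈ s, y v ∈ (Submodule.span ℂ s).topologicalClosure) :
    ∀ v ∈ (Submodule.span ℂ s).topologicalClosure, y v ∈ (Submodule.span ℂ s).topologicalClosure :=
  fun _ hv => Submodule.topologicalClosure_minimal _
    (t := (Submodule.span ℂ s).topologicalClosure.comap (y : H →ₗ[ℂ] H)) (Submodule.span_le.2 h)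
    (IsClosed.preimage y.continuous (Submodule.isClosed_topologicalClosure _)) hv

/-- On a cut above `t` the operator is at least `t`. -/
lemma mul_norm_cut_apply_le {h : Op H} (hh : IsSelfAdjoint h) {t : ℝ} (v : H) :
    t * ‖cut h t v‖ ≤ ‖h v‖ := by
  set c := cut h t
  have hc := Tr.isStarProjection_cut h t
  have hcomm : Commute h c := Tr.commute_cut t (Commute.refl h)
  have hnp : cfc (fun s : ℝ => max (t - s) 0) h * hinge h t = 0 := by
    rw [hinge, ← cfc_mul _ _ h, ← cfc_zero ℝ h]
    exact cfc_congr fun s _ => by rcases le_total s t with hs | hs <;> simp [hs]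
  have hnc : cfc (fun s : ℝ => max (t - s) 0) h * c = 0 := Tr.mul_rangeProj_eq_zero hnp
  have hpos : 0 ≤ c * (h - t • (1 : Op H)) * c := by
    rw [← Tr.hinge_sub_add hh t, mul_assoc, sub_mul (hinge h t), hnc, sub_zero, Tr.hinge_mul_cut,
      Tr.cut_mul_hinge]
    exact Tr.hinge_nonneg h t
  have hin := ((ContinuousLinearMap.nonneg_iff_isPositive _).1 hpos).inner_nonneg_right v
  have hin' : 0 ≤ (⟪c v, h (c v) - t • c v⟫_ℂ).re := by
    have e : ⟪v, (c * (h - t • (1 : Op H)) * c) v⟫_ℂ = ⟪c v, h (c v) - t • c v⟫_ℂ := by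
      conv_rhs => rw [← ContinuousLinearMap.adjoint_inner_right,
        ← ContinuousLinearMap.star_eq_adjoint, hc.isSelfAdjoint.star_eq]
      rfl
    rw [← e]
    exact (Complex.nonneg_iff.1 hin).1
  rw [inner_sub_right, inner_smul_right_eq_smul, inner_self_eq_norm_sq_to_K, Complex.sub_re] at hin'
  simp [← Complex.ofReal_pow] at hin'
  rcases eq_or_lt_of_le (norm_nonneg (c v)) with h0 | hpos'
  · rw [← h0, mul_zero]
    exact norm_nonneg _
  have e : h (c v) = c (h v) := DFunLike.congr_fun hcomm.eq v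
  have h1 : (⟪c v, h (c v)⟫_ℂ).re ≤ ‖c v‖ * ‖h v‖ := by
    refine (Complex.re_le_norm _).trans ((norm_inner_le_norm _ _).trans ?_)
    rw [e]
    exact mul_le_mul_of_nonneg_left ((c.le_opNorm _).trans
      (mul_le_of_le_one_left (norm_nonneg _) hc.norm_le)) (norm_nonneg _)
  nlinarith

/-- Below a cut of `g ≥ star a`-square, `a` is small. -/
lemma norm_one_sub_cut_mul_le {g a : Op H} (hg : a * star a ≤ g) {t : ℝ} (ht : 0 ≤ t) :
    ‖(1 - cut g t) * a‖ ≤ Real.sqrt t := by
  set c := cut g t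
  have hgs : IsSelfAdjoint g := ((mul_star_self_nonneg a).trans hg).isSelfAdjoint
  have hd := (Tr.isStarProjection_cut g t).one_sub
  refine Real.le_sqrt_of_sq_le ?_
  rw [pow_two, ← CStarRing.norm_self_mul_star, star_mul, hd.isSelfAdjoint.star_eq,
    CStarAlgebra.norm_le_iff_le_algebraMap _ ht ?_]
  · have h1 : (1 - c) * (a * star a) * (1 - c) ≤ (1 - c) * g * (1 - c) := by
      simpa [hd.isSelfAdjoint.star_eq, c] using star_left_conjugate_le_conjugate hg (1 - c)
    have h2 := Tr.le_of_cut hgs t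
    rw [mul_sub (1 - c), sub_mul ((1 - c) * g), mul_smul_comm, mul_one, smul_mul_assoc,
      hd.isIdempotentElem.eq, sub_nonpos] at h2
    rw [Algebra.algebraMap_eq_smul_one]
    refine (le_of_eq (by simp only [mul_assoc]; rfl)).trans ((h1.trans h2).trans ?_)
    exact smul_le_smul_of_nonneg_left hd.le_one ht
  · have := star_left_conjugate_nonneg (mul_star_self_nonneg a) (1 - c)
    rw [hd.isSelfAdjoint.star_eq] at this
    simpa only [mul_assoc] using this

namespace Semifinite

variable (S : Semifinite H)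

/-- Chebyshev for cuts. -/
lemma sq_cut_le {h : Op H} (hh : IsSelfAdjoint h) {t : ℝ} (ht : 0 < t) :
    ENNReal.ofReal (t ^ 2) * S.sq (cut h t) ≤ S.sq h := by
  rw [sq, sq, ← ENNReal.tsum_mul_left]
  refine ENNReal.tsum_le_tsum fun k => ?_
  rw [ENNReal.ofReal_pow ht.le, ← mul_pow, ← ofReal_norm, ← ofReal_norm,
    ← ENNReal.ofReal_mul ht.le]
  exact pow_le_pow_left' (ENNReal.ofReal_le_ofReal (mul_norm_cut_apply_le hh _)) 2

lemma L2.cut {h : Op H} (hs : IsSelfAdjoint h) (hh : S.L2 h) {t : ℝ} (ht : 0 < t) :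
    S.L2 (cut h t) := by
  refine ⟨S.cut_mem_M hh.1 t, fun htop => hh.2 (top_le_iff.1 ?_)⟩
  have := S.sq_cut_le hs ht
  rwa [htop, ENNReal.mul_top (by simpa using ht.ne')] at this

lemma star_mul_self_L2 {a : Op H} (ha : S.L2 a) : S.L2 (a * star a) := L2.mul_left ha.1 ha.star

/-- Vectors in the closed span of the ranges of a family of elements of finite 2-norm are fixed,
up to `δ`, by projections of finite trace. -/
lemma exists_cut_approx {B : Set (Op H)} (hBs : ∀ a ∈ B, a * star a ∈ B)
    (hBadd : ∀ a ∈ B, ∀ b ∈ B, a + b ∈ B) (hB0 : 0 ∈ B) (F : Finset H)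
    (hF : ∀ v ∈ F, v ∈ (Submodule.span ℂ {w | ∃ a ∈ B, ∃ u, a u = w}).topologicalClosure)
    {δ : ℝ} (hδ : 0 < δ) :
    ∃ g ∈ B, 0 ≤ g ∧ ∃ t > 0, ∀ v ∈ F, ‖(1 - cut g t) v‖ < δ := by
  set K := Submodule.span ℂ {w | ∃ a ∈ B, ∃ u, a u = w}
  have hK : ∀ w ∈ K, ∃ g ∈ B, 0 ≤ g ∧ ∃ C, ∀ g', g ≤ g' → ∀ t, 0 ≤ t →
      ‖(1 - cut g' t) w‖ ≤ C * Real.sqrt t := by
    intro w hw
    induction hw using Submodule.span_induction with
    | mem x hx =>
      obtain ⟨a, ha, u, rfl⟩ := hx
      refine ⟨_, hBs a ha, mul_star_self_nonneg a, ‖u‖, fun g' hg' t ht => ?_⟩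
      rw [← mul_apply_eq_comp, mul_comm]
      exact (ContinuousLinearMap.le_opNorm _ _).trans
        (mul_le_mul_of_nonneg_right (norm_one_sub_cut_mul_le hg' ht) (norm_nonneg _))
    | zero => exact ⟨0, hB0, le_rfl, 0, fun g' _ t _ => by simp⟩
    | add x y _ _ hx hy =>
      obtain ⟨g, hg, hg0, C, hC⟩ := hx
      obtain ⟨g2, hg2, hg20, C2, hC2⟩ := hy
      refine ⟨g + g2, hBadd _ hg _ hg2, add_nonneg hg0 hg20, C + C2, fun g' hg' t ht => ?_⟩
      rw [map_add, add_mul]
      exact (norm_add_le _ _).trans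
        (add_le_add (hC g' ((le_add_of_nonneg_right hg20).trans hg') t ht)
          (hC2 g' ((le_add_of_nonneg_left hg0).trans hg') t ht))
    | smul c x _ hx =>
      obtain ⟨g, hg, hg0, C, hC⟩ := hx
      refine ⟨g, hg, hg0, ‖c‖ * C, fun g' hg' t ht => ?_⟩
      rw [map_smul, norm_smul, mul_assoc]
      exact mul_le_mul_of_nonneg_left (hC g' hg' t ht) (norm_nonneg c)
  have hFK : ∀ v : F, ∃ w ∈ K, ‖(v : H) - w‖ < δ / 2 := fun v => by
    have hv : (v : H) ∈ closure (K : Set H) := hF v v.2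
    obtain ⟨w, hw, hvw⟩ := Metric.mem_closure_iff.1 hv (δ / 2) (half_pos hδ)
    exact ⟨w, hw, by rwa [dist_eq_norm] at hvw⟩
  choose w hwK hw using hFK
  choose g hg hg0 C hC using fun v : F => hK (w v) (hwK v)
  set G := ∑ v : F, g v
  have hGB : G ∈ B := Finset.sum_induction g (· ∈ B) (fun a b ha hb => hBadd a ha b hb) hB0
    fun v _ => hg v
  have hlim : Filter.Tendsto (fun t : ℝ => (∑ v : F, |C v|) * Real.sqrt t) (𝓝[>] 0) (𝓝 0) := by
    refine tendsto_nhdsWithin_of_tendsto_nhds ?_
    simpa using (Real.continuous_sqrt.tendsto 0).const_mul (∑ v : F, |C v|)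
  obtain ⟨t, ht, htpos⟩ :=
    ((hlim.eventually_lt_const (half_pos hδ)).and self_mem_nhdsWithin).exists
  refine ⟨G, hGB, Finset.sum_nonneg fun v _ => hg0 v, t, htpos, fun v hv => ?_⟩
  have hle : g ⟨v, hv⟩ ≤ G := Finset.single_le_sum (fun i _ => hg0 i) (Finset.mem_univ _)
  have hd := ((Tr.isStarProjection_cut G t).one_sub).norm_le
  calc ‖(1 - cut G t) v‖
      = ‖(1 - cut G t) (v - w ⟨v, hv⟩) + (1 - cut G t) (w ⟨v, hv⟩)‖ := by
        rw [← map_add, sub_add_cancel]
    _ ≤ ‖v - w ⟨v, hv⟩‖ + C ⟨v, hv⟩ * Real.sqrt t :=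
        (norm_add_le _ _).trans (add_le_add
          ((ContinuousLinearMap.le_opNorm _ _).trans (mul_le_of_le_one_left (norm_nonneg _) hd))
          (hC _ G hle t (le_of_lt htpos)))
    _ < δ / 2 + δ / 2 := by
        refine add_lt_add_of_lt_of_le (hw ⟨v, hv⟩) (le_trans ?_ ht.le)
        refine mul_le_mul_of_nonneg_right ((le_abs_self _).trans ?_) (Real.sqrt_nonneg t)
        exact Finset.single_le_sum (fun i _ => abs_nonneg (C i)) (Finset.mem_univ _)
    _ = δ := add_halves δ

/-- A cut of a positive element lies under every projection that fixes the element. -/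
lemma mul_cut_eq {z g : Op H} (hz : IsStarProjection z) (hg : IsSelfAdjoint g) (hzg : z * g = g)
    {t : ℝ} (ht : 0 < t) : z * cut g t = cut g t := by
  have hgz : g * z = g := by
    have := congrArg star hzg
    rwa [star_mul, hz.isSelfAdjoint.star_eq, hg.star_eq] at this
  have h0 : cut g t * (1 - z) = 0 := ContinuousLinearMap.ext fun v => by
    have h := mul_norm_cut_apply_le hg (t := t) ((1 - z) v)
    have e : g ((1 - z) v) = 0 := by
      rw [← mul_apply_eq_comp, mul_sub, mul_one, hgz, sub_self, zero_apply]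
    rw [e, norm_zero] at h
    exact norm_eq_zero.1 (le_antisymm (nonpos_of_mul_nonpos_right (a := t) (by rw [mul_apply_eq_comp]; exact h) ht)
      (norm_nonneg _))
  have := congrArg star h0
  rw [star_zero, star_mul, hz.one_sub.isSelfAdjoint.star_eq,
    (Tr.isStarProjection_cut g t).isSelfAdjoint.star_eq, sub_mul, one_mul, sub_eq_zero] at this
  exact this.symm

/-! ### The part of `A` with projections of finite trace -/

lemma z0_proj : IsStarProjection S.z0 := by
  have : CompleteSpace S.finSpace := (Submodule.isClosed_topologicalClosure _).completeSpace_coe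
  exact isStarProjection_starProjection

lemma z0_apply_mem (v : H) : S.z0 v ∈ S.finSpace := by
  have : CompleteSpace S.finSpace := (Submodule.isClosed_topologicalClosure _).completeSpace_coe
  exact Submodule.starProjection_apply_mem _ v

lemma z0_apply_of_mem {v : H} (hv : v ∈ S.finSpace) : S.z0 v = v := by
  have : CompleteSpace S.finSpace := (Submodule.isClosed_topologicalClosure _).completeSpace_coe
  exact Submodule.starProjection_eq_self_iff.2 hv

lemma z0_mul {a : Op H} (ha : a ∈ S.A) (hs : S.sq a ≠ ⊤) : S.z0 * a = a :=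
  ContinuousLinearMap.ext fun v => S.z0_apply_of_mem
    (Submodule.le_topologicalClosure _ (Submodule.subset_span ⟨a, ha, hs, v, rfl⟩))

lemma z0_mem_A : S.z0 ∈ S.A := by
  have : CompleteSpace S.finSpace := (Submodule.isClosed_topologicalClosure _).completeSpace_coe
  have hinv : ∀ y : Op H, (∀ a ∈ S.A, Commute y a) → ∀ v ∈ S.finSpace, y v ∈ S.finSpace :=
    fun y hy => closedSpan_invariant (fun w hw => by
      obtain ⟨a, ha, hs, u, rfl⟩ := hw
      exact Submodule.le_topologicalClosure _ (Submodule.subset_span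
        ⟨a, ha, hs, y u, (DFunLike.congr_fun (hy a ha).eq u).symm⟩))
  have hcom : ∀ y : Op H, (∀ a ∈ S.A, Commute y a) → (∀ a ∈ S.A, Commute (star y) a) →
      Commute y S.z0 := fun y h1 h2 => commute_starProjection (hinv y h1) (hinv _ h2)
  refine S.masa _ (S.mem_M_iff.2 fun y hy => ?_) fun a ha => ?_
  · exact (hcom y (fun b hb => S.commute_of_mem (S.le b hb) hy)
      fun b hb => S.commute_of_mem (S.le b hb) (star_mem hy)).eq
  · exact (hcom a (fun b hb => S.comm a ha b hb)
      fun b hb => S.comm _ (star_mem ha) b hb).eq.symm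

/-- Projections of `A` of finite trace are almost `z0` at finitely many vectors. -/
lemma exists_fin_A (F : Finset H) {δ : ℝ} (hδ : 0 < δ) :
    ∃ e ∈ S.A, IsStarProjection e ∧ S.z0 * e = e ∧ S.sq e ≠ ⊤ ∧
      ∀ v ∈ F, ‖(S.z0 - e) v‖ < δ := by
  classical
  obtain ⟨g, ⟨hgA, hgfin⟩, hg0, t, ht, hv⟩ := exists_cut_approx
    (B := {a | a ∈ S.A ∧ S.sq a ≠ ⊤})
    (fun a ha => ⟨mul_mem ha.1 (star_mem ha.1), (S.star_mul_self_L2 ⟨S.le a ha.1, ha.2⟩).2⟩)
    (fun a ha b hb => ⟨add_mem ha.1 hb.1, S.sq_add_ne_top ha.2 hb.2⟩)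
    ⟨zero_mem _, by simp⟩ (F.image S.z0) (fun w hw => by
      obtain ⟨v, -, rfl⟩ := Finset.mem_image.1 hw
      have := S.z0_apply_mem v
      simp only [finSpace] at this
      simpa [and_assoc] using this) hδ
  have hfin := L2.cut S hg0.isSelfAdjoint ⟨S.le g hgA, hgfin⟩ ht
  have hz : S.z0 * cut g t = cut g t := S.z0_mul (S.cut_mem_A hgA t) hfin.2
  refine ⟨cut g t, S.cut_mem_A hgA t, Tr.isStarProjection_cut _ _, hz, hfin.2, fun v hvF => ?_⟩
  have e : cut g t * S.z0 = cut g t := by rw [← S.comm _ S.z0_mem_A _ (S.cut_mem_A hgA t), hz]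
  have := hv _ (Finset.mem_image_of_mem _ hvF)
  rwa [← mul_apply_eq_comp, sub_mul, one_mul, e] at this

/-- Projections of `M` of finite trace are almost any projection at finitely many vectors. -/
lemma exists_fin_M {z : Op H} (hzM : z ∈ S.M) (hz : IsStarProjection z) (F : Finset H) {δ : ℝ}
    (hδ : 0 < δ) :
    ∃ q ∈ S.M, IsStarProjection q ∧ z * q = q ∧ S.sq q ≠ ⊤ ∧ ∀ v ∈ F, ‖(z - q) v‖ < δ := by
  classical
  set B := {a : Op H | S.L2 a ∧ z * a = a}
  set K := (Submodule.span ℂ {w | ∃ a ∈ B, ∃ u, a u = w}).topologicalClosure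
  set k := K.starProjection
  have hk : IsStarProjection k := isStarProjection_starProjection
  have hinv : ∀ y ∈ S.M.commutant, ∀ v ∈ K, y v ∈ K := fun y hy =>
    closedSpan_invariant (fun w hw => by
      obtain ⟨a, ha, u, rfl⟩ := hw
      exact Submodule.le_topologicalClosure _ (Submodule.subset_span
        ⟨a, ha, y u, (DFunLike.congr_fun (S.commute_of_mem ha.1.1 hy).eq u).symm⟩))
  have hkM : k ∈ S.M := S.mem_M_iff.2 fun y hy =>
    (commute_starProjection (hinv y hy) (hinv _ (star_mem hy))).eq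
  have hzK : ∀ v ∈ K, z v = v := fun v hv => by
    have hle : K ≤ LinearMap.eqLocus (z : H →ₗ[ℂ] H) LinearMap.id :=
      Submodule.topologicalClosure_minimal _ (Submodule.span_le.2 (by
        rintro _ ⟨a, ha, u, rfl⟩
        exact DFunLike.congr_fun ha.2 u)) (isClosed_eq z.continuous continuous_id)
    exact hle hv
  have hzk : z * k = k := ContinuousLinearMap.ext fun v =>
    hzK _ (Submodule.starProjection_apply_mem _ v)
  have hkz : k * z = k := by
    have := congrArg star hzk
    rwa [star_mul, hz.isSelfAdjoint.star_eq, hk.isSelfAdjoint.star_eq] at this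
  have hd : IsStarProjection (z - k) := by
    refine ⟨?_, hz.isSelfAdjoint.sub hk.isSelfAdjoint⟩
    show (z - k) * (z - k) = z - k
    rw [sub_mul, mul_sub, mul_sub, hz.isIdempotentElem.eq, hzk, hkz, hk.isIdempotentElem.eq]
    abel
  have hzk0 : z - k = 0 := by
    by_contra hne
    obtain ⟨q, hqM, hq, hq0, hdq, hqf⟩ := S.semifinite _ (sub_mem hzM hkM) hd hne
    have hzq : z * q = q := by
      conv_lhs => rw [← hdq, ← mul_assoc, mul_sub, hz.isIdempotentElem.eq, hzk, hdq]
    have hkq : k * q = q := ContinuousLinearMap.ext fun v => Submodule.starProjection_eq_self_iff.2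
      (Submodule.le_topologicalClosure _ (Submodule.subset_span ⟨q, ⟨⟨hqM, hqf⟩, hzq⟩, v, rfl⟩))
    rw [sub_mul, hzq, hkq, sub_self] at hdq
    exact hq0 hdq.symm
  obtain ⟨g, ⟨hg2, hzg⟩, hg0, t, ht, hv⟩ := exists_cut_approx (B := B)
    (fun a ha => ⟨S.star_mul_self_L2 ha.1, by rw [← mul_assoc, ha.2]⟩)
    (fun a ha b hb => ⟨ha.1.add hb.1, by rw [mul_add, ha.2, hb.2]⟩)
    ⟨L2.zero S, mul_zero z⟩ (F.image z) (fun w hw => by
      obtain ⟨v, -, rfl⟩ := Finset.mem_image.1 hw
      rw [show z = k from sub_eq_zero.1 hzk0]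
      exact Submodule.starProjection_apply_mem _ v) hδ
  have hc : z * cut g t = cut g t := mul_cut_eq hz hg0.isSelfAdjoint hzg ht
  refine ⟨cut g t, S.cut_mem_M hg2.1 t, Tr.isStarProjection_cut _ _, hc,
    (L2.cut S hg0.isSelfAdjoint hg2 ht).2, fun v hvF => ?_⟩
  have e : cut g t * z = cut g t := by
    have := congrArg star hc
    rwa [star_mul, hz.isSelfAdjoint.star_eq,
      (Tr.isStarProjection_cut g t).isSelfAdjoint.star_eq] at this
  have := hv _ (Finset.mem_image_of_mem _ hvF)
  rwa [← mul_apply_eq_comp, sub_mul, one_mul, e] at this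

end Semifinite

end Vale.Agent.P078.Semi
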